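import Crest.Agent.N337.KV.Energy
import Crest.Agent.N337.KV.Word

-- ▼ part N337/KV/Omega
section

/-!
# Row 337, part KV: the Kipnis-Varadhan bound in a fixed environment (helper23)
-/

set_option autoImplicit false
set_option linter.unusedSectionVars false

namespace Crest.Agent.N337.KV

open Crest.MathPhysics.SpinModel Crest.Agent.N337.Slot Finset Matrix

theorem tm_mul_add_ne {M L : ℕ} [NeZero (M * L)] (i i' : ℕ) {j : ℕ} (hj : 0 < j) (hjL : j < L) :
    tm (M * L) (i * L + j) ≠ tm (M * L) (i' * L) := by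
  intro h
  have h1 : (i * L + j) % (M * L) % L = (i' * L) % (M * L) % L :=
    congrArg (fun s : Fin (M * L) => s.val % L) h
  rw [Nat.mod_mod_of_dvd _ (Dvd.intro_left M rfl), Nat.mod_mod_of_dvd _ (Dvd.intro_left M rfl),
    Nat.mul_add_mod', Nat.mul_mod_left, Nat.mod_eq_of_lt hjL] at h1
  omega

variable {X : Type} [Fintype X] [DecidableEq X] {n : ℕ}

/-- sweep `i` is clean: the red set does not change during its first `m` steps. -/
def Clean {Λ : Type} (M L m : ℕ) [NeZero (M * L)] (R : Fin (M * L) → Finset Λ) (i : ℕ) : Prop :=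
  ∀ j < m, R (tm (M * L) (i * L + j) + 1) = R (tm (M * L) (i * L + j))

theorem period_diss (hn : 1 ≤ n) {J : X → X → ℝ} (hJ : ∀ x y, 0 ≤ J x y) {m : ℕ}
    {δ κ h ζ0 : ℝ} (hδ : 0 ≤ δ) (hκ : 0 ≤ κ) (hh : 0 ≤ h) (ψ : ℕ → X × Fin n → ℝ)
    (ex ey : ℕ → X × Fin n) (p : ℕ → ℝ) (hp : ∀ j, 0 ≤ p j ∧ p j ≤ 1)
    (hsum : ∀ φ : (X × Fin n) × (X × Fin n) → ℝ,
      ∑ j ∈ range m, p j * φ (ex j, ey j) = δ * ∑ q, J q.1.1 q.2.1 / 2 / 2 * φ q)
    (hκ1 : κ ≤ ζ0 ^ 2) (hζ1 : ζ0 ^ 2 ≤ 1)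
    (hκ2 : 2 * κ * δ * h ≤ 1 - ζ0 ^ 2 -
      16 * (δ * ∑ q : (X × Fin n) × (X × Fin n), J q.1.1 q.2.1 / 2 / 2) ^ 2)
    (R : Finset (X × Fin n)) (hR : ∀ j ≤ m, ∀ u ∈ R, ψ j u = 0)
    (hs : ∀ j < m, ψ (j + 1) = (if ex j ∉ R ∧ ey j ∉ R then kstep R (ex j) (ey j) (p j)
      else kstep R (ex j) (ey j) 0).mulVec (ψ j)) :
    2 * κ * δ * (n * (spinVal n * dir J (R.image Prod.fst) (avg (ψ 0)) +
      h * ∑ x ∈ (R.image Prod.fst)ᶜ, avg (ψ 0) x ^ 2)) ≤
      ∑ u, ψ 0 u ^ 2 - ζ0 ^ 2 * ∑ u, ψ m u ^ 2 := by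
  set q : ℕ → ℝ := fun j => if ex j ∉ R ∧ ey j ∉ R then p j else 0 with hq
  have hq1 : ∀ j, 0 ≤ q j ∧ q j ≤ p j := fun j => by
    have := hp j
    simp only [hq]; split_ifs
    · exact ⟨this.1, le_rfl⟩
    · exact ⟨le_rfl, this.1⟩
  have h1 := sweep_diss ψ ex ey q m (fun j _ => ⟨(hq1 j).1, (hq1 j).2.trans (hp j).2⟩)
    fun j hj u => by rw [hs j hj, green_mulVec R _ _ _ _ (hR j hj.le)]
  set ρ := ∑ q : (X × Fin n) × (X × Fin n), J q.1.1 q.2.1 / 2 / 2 with hρ
  have h2 : ∑ j ∈ range m, q j ≤ δ * ρ := by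
    have := hsum fun _ => 1
    simp only [mul_one] at this
    rw [hρ, ← this]
    exact Finset.sum_le_sum fun j _ => (hq1 j).2
  have h2' : 0 ≤ ∑ j ∈ range m, q j := Finset.sum_nonneg fun j _ => (hq1 j).1
  set D := ∑ q : (X × Fin n) × (X × Fin n),
    (if q.1 ∉ R ∧ q.2 ∉ R then J q.1.1 q.2.1 / 2 / 2 else 0) * (ψ 0 q.1 - ψ 0 q.2) ^ 2 with hD
  have h3 : ∑ j ∈ range m, q j * (ψ 0 (ex j) - ψ 0 (ey j)) ^ 2 = δ * D := by
    have := hsum fun q => if q.1 ∉ R ∧ q.2 ∉ R then (ψ 0 q.1 - ψ 0 q.2) ^ 2 else 0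
    simp only [mul_ite, mul_zero] at this
    simp only [hq, hD, ite_mul, zero_mul]
    exact this
  have h4 := dir_ge hn hJ (ψ 0) R
  have h5 := mass_ge hn (ψ 0) (R.image Prod.fst)ᶜ
  rw [← hD] at h4
  rw [h3] at h1
  set N := ∑ u, ψ 0 u ^ 2 with hN
  have hN0 : 0 ≤ N := Finset.sum_nonneg fun _ _ => sq_nonneg _
  have hD0 : 0 ≤ D := Finset.sum_nonneg fun q _ => by
    have := hJ q.1.1 q.2.1
    split_ifs <;> positivity
  have h6 : (∑ j ∈ range m, q j) ^ 2 ≤ (δ * ρ) ^ 2 := pow_le_pow_left₀ h2' h2 2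
  have h7 : ∑ u, ψ m u ^ 2 ≤ N - 2 * (δ * D) + 16 * (δ * ρ) ^ 2 * N := by
    have := mul_le_mul_of_nonneg_right h6 hN0
    linarith
  have hz : 0 ≤ ζ0 ^ 2 := sq_nonneg _
  have h8 := mul_le_mul_of_nonneg_left h7 hz
  have h9 : κ * (δ * D) ≤ ζ0 ^ 2 * (δ * D) := mul_le_mul_of_nonneg_right hκ1 (by positivity)
  have h10 : ζ0 ^ 2 * (16 * (δ * ρ) ^ 2 * N) ≤ 1 * (16 * (δ * ρ) ^ 2 * N) :=
    mul_le_mul_of_nonneg_right hζ1 (by positivity)
  have h11 := mul_le_mul_of_nonneg_right hκ2 hN0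
  have h12 : κ * δ * (n * (spinVal n * dir J (R.image Prod.fst) (avg (ψ 0)))) ≤ κ * δ * D :=
    mul_le_mul_of_nonneg_left h4 (by positivity)
  have h13 : κ * δ * h * (n * ∑ x ∈ (R.image Prod.fst)ᶜ, avg (ψ 0) x ^ 2) ≤ κ * δ * h * N :=
    mul_le_mul_of_nonneg_left h5 (by positivity)
  nlinarith

open Classical in
/-- the good, clean source at macro time `i`. -/
noncomputable def src (M L m : ℕ) [NeZero (M * L)] (R : Fin (M * L) → Finset (X × Fin n))
    (Good : Finset X → Finset X) (δ : ℝ) (a : X → ℝ) (i : ℕ) (u : X × Fin n) : ℝ :=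
  if Clean M L m R i ∧ u.1 ∈ Good ((R (tm (M * L) (i * L))).image Prod.fst) then δ * a u.1 else 0

theorem omega_bound (hn : 1 ≤ n) {J : X → X → ℝ} (hJ : ∀ x y, 0 ≤ J x y) {M L m : ℕ}
    [NeZero (M * L)] (hmL : m < L)
    {δ κ h ζ0 : ℝ} (hδ : 0 ≤ δ) (hκ : 0 < κ) (hh : 0 ≤ h)
    (ex ey : Fin (M * L) → X × Fin n) (p ζ : Fin (M * L) → ℝ)
    (hp : ∀ s, 0 ≤ p s ∧ p s ≤ 1) (hζ : ∀ s, 0 < ζ s ∧ ζ s ≤ 1)
    (hζ1 : ∀ i, ∀ j < m, ζ (tm (M * L) (i * L + j)) = 1) (hζ0 : ∀ i, ζ (tm (M * L) (i * L + m)) = ζ0)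
    (hsum : ∀ i (φ : (X × Fin n) × (X × Fin n) → ℝ),
      ∑ j ∈ range m, p (tm (M * L) (i * L + j)) *
        φ (ex (tm (M * L) (i * L + j)), ey (tm (M * L) (i * L + j))) =
        δ * ∑ q, J q.1.1 q.2.1 / 2 / 2 * φ q)
    (hκ1 : κ ≤ ζ0 ^ 2)
    (hκ2 : 2 * κ * δ * h ≤ 1 - ζ0 ^ 2 -
      16 * (δ * ∑ q : (X × Fin n) × (X × Fin n), J q.1.1 q.2.1 / 2 / 2) ^ 2)
    (R : Fin (M * L) → Finset (X × Fin n)) (K : Fin (M * L) → Matrix (X × Fin n) (X × Fin n) ℝ)
    (G : Fin (M * L) × (X × Fin n) → Fin (M * L) × (X × Fin n) → ℝ)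
    (hG0 : ∀ v u, 0 ≤ G v u) (hGR : ∀ v u, v.2 ∈ R v.1 ∨ u.2 ∈ R u.1 → G v u = 0)
    (hrec : ∀ s y u, G (s + 1, y) u =
      (if (s + 1, y) = u ∧ y ∉ R (s + 1) then 1 else 0) + ζ s * ∑ x, K s y x * G (s, x) u)
    (hK : ∀ s (f : X × Fin n → ℝ), ∑ y, ((K s).mulVec f y) ^ 2 ≤ ∑ x, f x ^ 2)
    (hKs : ∀ s, R (s + 1) = R s → K s =
      if ex s ∉ R s ∧ ey s ∉ R s then kstep (R s) (ex s) (ey s) (p s)
      else kstep (R s) (ex s) (ey s) 0)
    (a : X → ℝ) (ha : ∀ x, 0 ≤ a x) (Good : Finset X → Finset X) (C : Finset X → ℝ)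
    (hC : ∀ S, 0 ≤ C S) (hdis : ∀ S, Disjoint (Good S) S)
    (hquad : ∀ S (ψ : X → ℝ), (∀ x, 0 ≤ ψ x) → (∑ x ∈ Good S, a x * ψ x) ^ 2 ≤
      C S * (spinVal n * dir J S ψ + h * ∑ x ∈ Sᶜ, ψ x ^ 2)) :
    ∑ i' ∈ range M, ∑ v, src M L m R Good δ a i' v * ∑ i ∈ range M, ∑ u,
        G (tm (M * L) (i' * L), v) (tm (M * L) (i * L), u) * src M L m R Good δ a i u ≤
      δ * n / κ * ∑ i ∈ range M, C ((R (tm (M * L) (i * L))).image Prod.fst) := by
  set γ := src M L m R Good δ a with hγ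
  have hγ0 : ∀ i u, 0 ≤ γ i u := fun i u => by
    have := ha u.1
    simp only [hγ, src]; split_ifs <;> positivity
  have hγR : ∀ i u, u ∈ R (tm (M * L) (i * L)) → γ i u = 0 := fun i u hu => by
    simp only [hγ, src]
    rw [if_neg]
    rintro ⟨-, h2⟩
    exact Finset.disjoint_left.1 (hdis _) h2 (Finset.mem_image.2 ⟨u, hu, rfl⟩)
  set F : Fin (M * L) → X × Fin n → ℝ := fun s y =>
    ∑ i ∈ range M, ∑ u, G (s, y) (tm (M * L) (i * L), u) * γ i u with hF
  set g : Fin (M * L) → X × Fin n → ℝ := fun s y =>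
    ∑ i ∈ range M, if s = tm (M * L) (i * L) then γ i y else 0 with hg
  set Fm : Fin (M * L) → X × Fin n → ℝ := fun s y => ζ s * (K s).mulVec (F s) y with hFm
  have hF0 : ∀ s y, 0 ≤ F s y := fun s y => Finset.sum_nonneg fun i _ =>
    Finset.sum_nonneg fun u _ => mul_nonneg (hG0 _ _) (hγ0 _ _)
  have hFR : ∀ s y, y ∈ R s → F s y = 0 := fun s y hy =>
    Finset.sum_eq_zero fun i _ => Finset.sum_eq_zero fun u _ => by
      rw [hGR _ _ (Or.inl hy), zero_mul]
  have hstep : ∀ s y, F (s + 1) y = g (s + 1) y + Fm s y := fun s y => by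
    simp only [hF, hg, hFm, hrec s y, add_mul, Finset.sum_add_distrib, Matrix.mulVec, dotProduct,
      Finset.mul_sum, Finset.sum_mul]
    congr 1
    · refine Finset.sum_congr rfl fun i _ => ?_
      by_cases hs : s + 1 = tm (M * L) (i * L)
      · rw [if_pos hs, Finset.sum_eq_single y]
        · by_cases hy : y ∈ R (s + 1)
          · rw [hγR i y (hs ▸ hy), mul_zero]
          · rw [if_pos ⟨by rw [hs], hy⟩, one_mul]
        · intro u _ hu
          rw [if_neg, zero_mul]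
          rintro ⟨h1, -⟩
          exact hu (Prod.ext_iff.1 h1).2.symm
        · simp
      · rw [if_neg hs]
        refine Finset.sum_eq_zero fun u _ => ?_
        rw [if_neg, zero_mul]
        rintro ⟨h1, -⟩
        exact hs (Prod.ext_iff.1 h1).1
    · rw [Finset.sum_comm (s := Finset.univ)]
      refine Finset.sum_congr rfl fun i _ => ?_
      rw [Finset.sum_comm]
      refine Finset.sum_congr rfl fun u _ => Finset.sum_congr rfl fun x _ => by ring
  have hE := energy_ineq F g Fm hstep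
  have hX : ∑ s, ∑ y, g s y * F s y = ∑ i ∈ range M, ∑ y, γ i y * F (tm (M * L) (i * L)) y := by
    simp only [hg, Finset.sum_mul, ite_mul, zero_mul]
    rw [Finset.sum_comm]
    simp only [Finset.sum_comm (s := (Finset.univ : Finset (Fin (M * L)))), Finset.sum_ite_eq',
      Finset.mem_univ, if_true]
    exact Finset.sum_comm
  have hFm2 : ∀ s, ∑ y, Fm s y ^ 2 ≤ ζ s ^ 2 * ∑ y, F s y ^ 2 := fun s => by
    simp only [hFm, mul_pow, ← Finset.mul_sum]
    exact mul_le_mul_of_nonneg_left (hK s _) (sq_nonneg _)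
  have hD0 : ∀ s, 0 ≤ ∑ y, F s y ^ 2 - ∑ y, Fm s y ^ 2 := fun s => by
    have h1 := hFm2 s
    have h2 : ζ s ^ 2 ≤ 1 := pow_le_one₀ (hζ s).1.le (hζ s).2
    have h3 : 0 ≤ ∑ y, F s y ^ 2 := Finset.sum_nonneg fun _ _ => sq_nonneg _
    nlinarith
  rw [hX, sum_tm, sum_range_mul, Finset.mul_sum] at hE
  change ∑ i ∈ range M, ∑ y, γ i y * F (tm (M * L) (i * L)) y ≤ _
  have key : ∀ i ∈ range M, 2 * ∑ y, γ i y * F (tm (M * L) (i * L)) y -
      1 / 2 * ∑ j ∈ range L, (∑ y, F (tm (M * L) (i * L + j)) y ^ 2 -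
        ∑ y, Fm (tm (M * L) (i * L + j)) y ^ 2) ≤
      δ * n / κ * C ((R (tm (M * L) (i * L))).image Prod.fst) := by
    intro i _
    have hC' := hC ((R (tm (M * L) (i * L))).image Prod.fst)
    by_cases hc : Clean M L m R i
    · set ψ : ℕ → X × Fin n → ℝ := fun j => F (tm (M * L) (i * L + j)) with hψ
      set R0 := R (tm (M * L) (i * L)) with hR0
      have hRj : ∀ j ≤ m, R (tm (M * L) (i * L + j)) = R0 := fun j hj => by
        induction j with
        | zero => rfl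
        | succ j ih => rw [← Nat.add_assoc, tm_succ, hc j (by omega), ih (by omega)]
      have hnext : ∀ j < m, ψ (j + 1) = Fm (tm (M * L) (i * L + j)) := fun j hj => by
        funext y
        have e : g (tm (M * L) (i * L + j) + 1) y = 0 := Finset.sum_eq_zero fun i' _ => by
          rw [if_neg]
          rw [← tm_succ, Nat.add_assoc]
          exact tm_mul_add_ne i i' (by omega) (by omega)
        simp only [hψ]
        rw [← Nat.add_assoc, tm_succ, hstep, e, zero_add]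
      have hζ0' : ζ0 ^ 2 ≤ 1 := by
        rw [← hζ0 i]; exact pow_le_one₀ (hζ _).1.le (hζ _).2
      have hP := period_diss hn hJ hδ hκ.le hh ψ (fun j => ex (tm (M * L) (i * L + j)))
        (fun j => ey (tm (M * L) (i * L + j))) (fun j => p (tm (M * L) (i * L + j)))
        (fun j => hp _) (hsum i) hκ1 hζ0' hκ2 R0
        (fun j hj u hu => hFR _ _ (by rw [hRj j hj]; exact hu)) fun j hj => by
          rw [hnext j hj]
          funext y
          simp only [hFm]
          rw [hζ1 i j hj, one_mul, hKs _ (hc j hj), hRj j hj.le]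
      have hT : ∑ u, ψ 0 u ^ 2 - ζ0 ^ 2 * ∑ u, ψ m u ^ 2 ≤
          ∑ j ∈ range L, (∑ y, F (tm (M * L) (i * L + j)) y ^ 2 -
            ∑ y, Fm (tm (M * L) (i * L + j)) y ^ 2) := by
        refine le_trans ?_ (Finset.sum_le_sum_of_subset_of_nonneg
          (Finset.range_subset_range.2 (Nat.succ_le_of_lt hmL)) fun j _ _ => hD0 _)
        rw [Finset.sum_range_succ, Finset.sum_congr rfl (g := fun j =>
          ∑ y, ψ j y ^ 2 - ∑ y, ψ (j + 1) y ^ 2) fun j hj => by
            rw [hnext j (Finset.mem_range.1 hj)],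
          Finset.sum_range_sub' (fun j => ∑ y, ψ j y ^ 2)]
        have := hFm2 (tm (M * L) (i * L + m))
        rw [hζ0 i] at this
        simp only [hψ] at this ⊢
        linarith
      have hb : ∑ y, γ i y * F (tm (M * L) (i * L)) y =
          δ * n * ∑ x ∈ Good (R0.image Prod.fst), a x * avg (ψ 0) x := by
        rw [Fintype.sum_prod_type, Finset.mul_sum, ← Finset.sum_subset
          (Finset.subset_univ (Good (R0.image Prod.fst)))]
        · refine Finset.sum_congr rfl fun x hx => ?_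
          have : ∀ j : Fin n, γ i (x, j) = δ * a x := fun j => by
            simp only [hγ, src]; rw [if_pos ⟨hc, hx⟩]
          simp only [this, ← Finset.mul_sum]
          have e := sum_eq_avg hn (ψ 0) x
          simp only [hψ, Nat.add_zero] at e ⊢
          rw [e]; ring
        · intro x _ hx
          refine Finset.sum_eq_zero fun j _ => ?_
          simp only [hγ, src]
          rw [if_neg (fun h' => hx h'.2), zero_mul]
      have hq := hquad (R0.image Prod.fst) (avg (ψ 0)) (avg_nonneg fun u => hF0 _ _)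
      set E := spinVal n * dir J (R0.image Prod.fst) (avg (ψ 0)) +
        h * ∑ x ∈ (R0.image Prod.fst)ᶜ, avg (ψ 0) x ^ 2 with hEdef
      have hE0 : 0 ≤ E := by
        have h1 : 0 ≤ dir J (R0.image Prod.fst) (avg (ψ 0)) :=
          mul_nonneg (by norm_num) (Finset.sum_nonneg fun x _ => Finset.sum_nonneg fun y _ =>
            mul_nonneg (hJ x y) (sq_nonneg _))
        have h2 : 0 ≤ ∑ x ∈ (R0.image Prod.fst)ᶜ, avg (ψ 0) x ^ 2 :=
          Finset.sum_nonneg fun _ _ => sq_nonneg _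
        have h3 : 0 ≤ spinVal n := by unfold spinVal; positivity
        positivity
      have h2 := two_mul_sub_le hκ hC' hE0 hq
      have h3 := mul_le_mul_of_nonneg_left h2 (show 0 ≤ δ * n by positivity)
      rw [hb]
      have e : δ * n / κ * C (R0.image Prod.fst) = δ * n * (C (R0.image Prod.fst) / κ) := by ring
      rw [e]
      nlinarith
    · have hb : ∑ y, γ i y * F (tm (M * L) (i * L)) y = 0 := Finset.sum_eq_zero fun y _ => by
        simp only [hγ, src]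
        rw [if_neg (fun h' => hc h'.1), zero_mul]
      have h1 : 0 ≤ ∑ j ∈ range L, (∑ y, F (tm (M * L) (i * L + j)) y ^ 2 -
          ∑ y, Fm (tm (M * L) (i * L + j)) y ^ 2) := Finset.sum_nonneg fun j _ => hD0 _
      have h2 : 0 ≤ δ * n / κ * C ((R (tm (M * L) (i * L))).image Prod.fst) := by positivity
      rw [hb]; linarith
  have hs := Finset.sum_le_sum key
  rw [Finset.sum_sub_distrib, ← Finset.mul_sum, ← Finset.mul_sum (a := δ * n / κ)] at hs
  linarith

end Crest.Agent.N337.KV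
end

-- ▼ part N337/KV/Core
section

/-!
# Row 337, part KV: averaging over the environment at macro times (helper23)
-/

set_option autoImplicit false
set_option linter.unusedSectionVars false

namespace Crest.Agent.N337.KV

open Crest.MathPhysics.SpinModel Crest.Agent.N337.Slot Finset Matrix

variable {X : Type} [Fintype X] [DecidableEq X] {n : ℕ}

/-- one slot chosen above every site of `B`. -/
def sl (B : Finset X) (φ : B → Fin n) : Finset (X × Fin n) :=
  Finset.univ.map ⟨fun y : B => (y.1, φ y), fun _ _ h => Subtype.ext (Prod.ext_iff.1 h).1⟩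

theorem card_sl (B : Finset X) (φ : B → Fin n) : (sl B φ).card = B.card := by simp [sl]

theorem mem_of_mem_sl {B : Finset X} {φ : B → Fin n} {u : X × Fin n} (h : u ∈ sl B φ) : u.1 ∈ B := by
  obtain ⟨y, -, rfl⟩ := Finset.mem_map.1 h
  exact y.2

theorem exists_sl {B : Finset X} {R : Finset (X × Fin n)} (h : B ⊆ R.image Prod.fst) :
    ∃ φ : B → Fin n, sl B φ ⊆ R := by
  have : ∀ y : B, ∃ j : Fin n, (y.1, j) ∈ R := fun y => by
    obtain ⟨u, hu, e⟩ := Finset.mem_image.1 (h y.2)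
    exact ⟨u.2, by rw [← e]; exact hu⟩
  choose φ hφ using this
  refine ⟨φ, fun u hu => ?_⟩
  obtain ⟨y, -, rfl⟩ := Finset.mem_map.1 hu
  exact hφ y

theorem avg_le {Ω : Type} [Fintype Ω] {ν : Ω → ℝ} (hν : ∀ ω, 0 ≤ ν ω) {f g : Ω → ℝ}
    (h : ∀ ω, 0 < ν ω → f ω ≤ g ω) : ∑ ω, ν ω * f ω ≤ ∑ ω, ν ω * g ω :=
  Finset.sum_le_sum fun ω _ => by
    rcases (hν ω).eq_or_lt with h0 | h0
    · rw [← h0, zero_mul, zero_mul]
    · exact mul_le_mul_of_nonneg_left (h ω h0) h0.le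

theorem avg_choice {Ω : Type} [Fintype Ω] {ν : Ω → ℝ} (hν : ∀ ω, 0 ≤ ν ω)
    (Rt : Ω → Finset (X × Fin n)) (t : Ω → ℝ) (ht : ∀ ω, 0 < ν ω → 0 ≤ t ω) (B : Finset X) (b : ℝ)
    (hb : ∀ φ : B → Fin n, ∑ ω, ν ω * (if sl B φ ⊆ Rt ω then t ω else 0) ≤ b) :
    ∑ ω, ν ω * (if B ⊆ (Rt ω).image Prod.fst then t ω else 0) ≤ (n : ℝ) ^ B.card * b := by
  calc _ ≤ ∑ ω, ν ω * ∑ φ : B → Fin n, (if sl B φ ⊆ Rt ω then t ω else 0) := by
        refine avg_le hν fun ω hω => ?_
        have h0 : ∀ φ : B → Fin n, 0 ≤ (if sl B φ ⊆ Rt ω then t ω else 0) := fun φ => by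
          split_ifs
          · exact ht ω hω
          · exact le_rfl
        split_ifs with hB
        · obtain ⟨φ, hφ⟩ := exists_sl hB
          refine le_trans ?_ (Finset.single_le_sum (fun φ _ => h0 φ) (Finset.mem_univ φ))
          rw [if_pos hφ]
        · exact Finset.sum_nonneg fun φ _ => h0 φ
    _ = ∑ φ : B → Fin n, ∑ ω, ν ω * (if sl B φ ⊆ Rt ω then t ω else 0) := by
        simp only [Finset.mul_sum]; exact Finset.sum_comm
    _ ≤ ∑ _φ : B → Fin n, b := Finset.sum_le_sum fun φ _ => hb φ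
    _ = _ := by simp

theorem avg_bad {Ω : Type} [Fintype Ω] {ν : Ω → ℝ} (hν : ∀ ω, 0 ≤ ν ω)
    (Rt : Ω → Finset (X × Fin n)) (t : Ω → ℝ) (ht : ∀ ω, 0 < ν ω → 0 ≤ t ω)
    (Good : Finset X → Finset X) (𝒲 : X → Finset (Finset X))
    (hW : ∀ S x, x ∉ Good S → ∃ B ∈ 𝒲 x, B ⊆ S) (x : X) (b : Finset X → ℝ)
    (hb : ∀ B ∈ 𝒲 x, ∀ φ : B → Fin n, ∑ ω, ν ω * (if sl B φ ⊆ Rt ω then t ω else 0) ≤ b B) :
    ∑ ω, ν ω * (if x ∉ Good ((Rt ω).image Prod.fst) then t ω else 0) ≤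
      ∑ B ∈ 𝒲 x, (n : ℝ) ^ B.card * b B := by
  calc _ ≤ ∑ ω, ν ω * ∑ B ∈ 𝒲 x, (if B ⊆ (Rt ω).image Prod.fst then t ω else 0) := by
        refine avg_le hν fun ω hω => ?_
        have h0 : ∀ B : Finset X, 0 ≤ (if B ⊆ (Rt ω).image Prod.fst then t ω else 0) := fun B => by
          split_ifs
          · exact ht ω hω
          · exact le_rfl
        split_ifs with hx
        · exact Finset.sum_nonneg fun B _ => h0 B
        · obtain ⟨B, hB, hBS⟩ := hW _ x hx
          refine le_trans ?_ (Finset.single_le_sum (fun B _ => h0 B) hB)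
          rw [if_pos hBS]
    _ = ∑ B ∈ 𝒲 x, ∑ ω, ν ω * (if B ⊆ (Rt ω).image Prod.fst then t ω else 0) := by
        simp only [Finset.mul_sum]; exact Finset.sum_comm
    _ ≤ _ := Finset.sum_le_sum fun B hB => avg_choice hν Rt t ht B _ (hb B hB)

/-- site-constant creation operator. -/
def cF (n : ℕ) (a : X → ℝ) : BOp (X × Fin n) := crF fun u => a u.1
/-- site-constant annihilation operator. -/
def aF (n : ℕ) (a : X → ℝ) : BOp (X × Fin n) := anF fun u => a u.1

/-- finite-`M` rarity weight. -/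
noncomputable def rarM (n : ℕ) (W : BOp (X × Fin n)) (B : Finset X) (m : ℕ) : ℝ :=
  (2 * n * Real.exp 1 * ((cF n (ind B) * aF n (ind B) * W).trace / W.trace) / m) ^ m

theorem ind_nonneg (B : Finset X) (x : X) : 0 ≤ ind B x := by
  unfold ind; split_ifs <;> norm_num

theorem one_le_ind {B : Finset X} {x : X} (h : x ∈ B) : 1 ≤ ind B x := by simp [ind, h]

theorem rar_eq (q : ℝ) (m : ℕ) : (n : ℝ) ^ m * (2 ^ m * (Real.exp 1 * q / m) ^ m) =
    (2 * n * Real.exp 1 * q / m) ^ m := by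
  rw [← mul_pow, ← mul_pow]; congr 1; ring

theorem trace_aF (a : X → ℝ) (A B C : BOp (X × Fin n)) :
    (aF n a * A * B * C).trace = ∑ v : X × Fin n, a v.1 * (an v * A * B * C).trace := by
  simp only [aF, anF, Finset.sum_mul, Matrix.trace_sum, Matrix.smul_mul, Matrix.trace_smul,
    smul_eq_mul]

theorem trace_cF (a : X → ℝ) (A B C : BOp (X × Fin n)) :
    (A * B * cF n a * C).trace = ∑ u : X × Fin n, a u.1 * (A * B * cr u * C).trace := by
  simp only [cF, crF, Finset.sum_mul, Finset.mul_sum, Matrix.trace_sum, Matrix.smul_mul,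
    Matrix.mul_smul, Matrix.trace_smul, smul_eq_mul]

theorem bad_src (hcor : CorStmt) (W1 W2 : BOp (X × Fin n)) (h1 : W1 ∈ Adm (X × Fin n))
    (h2 : W2 ∈ Adm (X × Fin n)) (hZ : 0 < (W1 * W2).trace) (hcomm : W2 * W1 = W1 * W2)
    {Ω : Type} [Fintype Ω] (ν : Ω → ℝ) (hν : ∀ ω, 0 ≤ ν ω)
    (R : Ω → Finset (X × Fin n)) (G : Ω → X × Fin n → X × Fin n → ℝ)
    (hG : ∀ ω, 0 < ν ω → ∀ v u, 0 ≤ G ω v u)
    (hb : ∀ u v (A : Finset (X × Fin n)), ∑ ω, ν ω * (if A ⊆ R ω then G ω v u else 0) ≤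
        2 ^ A.card * (an v * W1 * (cr u * nb A) * W2).trace)
    (a : X → ℝ) (ha : ∀ x, 0 ≤ a x) (𝒲 : X → Finset (Finset X))
    (hW0 : ∀ x, ∅ ∉ 𝒲 x) (Good : Finset X → Finset X)
    (hW : ∀ S x, x ∉ Good S → ∃ B ∈ 𝒲 x, B ⊆ S) :
    ∑ ω, ν ω * ∑ u : X × Fin n, ∑ v : X × Fin n,
      (if u.1 ∉ Good ((R ω).image Prod.fst) then a u.1 * a v.1 * G ω v u else 0) ≤
      n * Real.exp 1 * ∑ x, a x * ∑ B ∈ 𝒲 x, rarM n (W1 * W2) (insert x B) B.card *
        (aF n a * W1 * cF n (ind (insert x B)) * W2).trace := by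
  have key : ∀ u : X × Fin n, ∑ ω, ν ω *
      (if u.1 ∉ Good ((R ω).image Prod.fst) then ∑ v : X × Fin n, a v.1 * G ω v u else 0) ≤
      Real.exp 1 * ∑ B ∈ 𝒲 u.1, rarM n (W1 * W2) (insert u.1 B) B.card *
        (aF n a * W1 * cF n (ind (insert u.1 B)) * W2).trace := fun u => by
    refine (avg_bad hν R _ (fun ω hω => Finset.sum_nonneg fun v _ =>
      mul_nonneg (ha _) (hG ω hω v u)) Good 𝒲 hW u.1 (fun B => 2 ^ B.card * (Real.exp 1 *
        (Real.exp 1 * ((cF n (ind (insert u.1 B)) * aF n (ind (insert u.1 B)) * (W1 * W2)).trace /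
          (W1 * W2).trace) / B.card) ^ B.card *
        (aF n a * W1 * cF n (ind (insert u.1 B)) * W2).trace)) fun B hB φ => ?_).trans
      (le_of_eq ?_)
    · have hne : (sl B φ).Nonempty := by
        rw [← Finset.card_pos, card_sl, Finset.card_pos, Finset.nonempty_iff_ne_empty]
        rintro rfl; exact hW0 _ hB
      have hc := ((hcor _ W1 W2 h1 h2 hZ (sl B φ) (fun w => ind (insert u.1 B) w.1) hne
        (fun w => ind_nonneg _ _) fun w hw =>
          one_le_ind (Finset.mem_insert_of_mem (mem_of_mem_sl hw))).2 (fun w => a w.1) u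
          (fun w => ha _) (one_le_ind (Finset.mem_insert_self _ _))).1
      rw [card_sl, hcomm] at hc
      calc _ = ∑ v : X × Fin n, a v.1 * ∑ ω, ν ω * (if sl B φ ⊆ R ω then G ω v u else 0) := by
            simp only [Finset.mul_sum]
            rw [Finset.sum_comm]
            refine Finset.sum_congr rfl fun ω _ => ?_
            split_ifs
            · rw [Finset.mul_sum]; exact Finset.sum_congr rfl fun v _ => by ring
            · simp
        _ ≤ ∑ v : X × Fin n, a v.1 * (2 ^ B.card * (an v * W1 * (cr u * nb (sl B φ)) * W2).trace) :=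
            Finset.sum_le_sum fun v _ => mul_le_mul_of_nonneg_left
              (by simpa only [card_sl] using hb u v (sl B φ)) (ha _)
        _ = 2 ^ B.card * (aF n a * W1 * (cr u * nb (sl B φ)) * W2).trace := by
            rw [trace_aF, Finset.mul_sum]; exact Finset.sum_congr rfl fun v _ => by ring
        _ ≤ _ := mul_le_mul_of_nonneg_left hc (by positivity)
    · rw [Finset.mul_sum]
      refine Finset.sum_congr rfl fun B _ => ?_
      rw [rarM, ← rar_eq]; ring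
  calc _ = ∑ u : X × Fin n, a u.1 * ∑ ω, ν ω *
      (if u.1 ∉ Good ((R ω).image Prod.fst) then ∑ v : X × Fin n, a v.1 * G ω v u else 0) := by
        simp only [Finset.mul_sum]
        rw [Finset.sum_comm]
        refine Finset.sum_congr rfl fun u _ => Finset.sum_congr rfl fun ω _ => ?_
        split_ifs
        · simp
        · simp only [Finset.mul_sum]; exact Finset.sum_congr rfl fun v _ => by ring
    _ ≤ ∑ u : X × Fin n, a u.1 * (Real.exp 1 * ∑ B ∈ 𝒲 u.1, rarM n (W1 * W2) (insert u.1 B) B.card *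
        (aF n a * W1 * cF n (ind (insert u.1 B)) * W2).trace) :=
        Finset.sum_le_sum fun u _ => mul_le_mul_of_nonneg_left (key u) (ha _)
    _ = _ := by
        rw [Fintype.sum_prod_type, Finset.mul_sum]
        refine Finset.sum_congr rfl fun x _ => ?_
        simp only [Finset.sum_const, Finset.card_univ, Fintype.card_fin, nsmul_eq_mul]
        ring

theorem bad_snk (hcor : CorStmt) (W1 W2 : BOp (X × Fin n)) (h1 : W1 ∈ Adm (X × Fin n))
    (h2 : W2 ∈ Adm (X × Fin n)) (hZ : 0 < (W1 * W2).trace)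
    {Ω : Type} [Fintype Ω] (ν : Ω → ℝ) (hν : ∀ ω, 0 ≤ ν ω)
    (R : Ω → Finset (X × Fin n)) (G : Ω → X × Fin n → X × Fin n → ℝ)
    (hG : ∀ ω, 0 < ν ω → ∀ v u, 0 ≤ G ω v u)
    (hb : ∀ u v (A : Finset (X × Fin n)), ∑ ω, ν ω * (if A ⊆ R ω then G ω v u else 0) ≤
        2 ^ A.card * (nb A * an v * W1 * cr u * W2).trace)
    (a : X → ℝ) (ha : ∀ x, 0 ≤ a x) (𝒲 : X → Finset (Finset X))
    (hW0 : ∀ x, ∅ ∉ 𝒲 x) (Good : Finset X → Finset X)
    (hW : ∀ S x, x ∉ Good S → ∃ B ∈ 𝒲 x, B ⊆ S) :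
    ∑ ω, ν ω * ∑ u : X × Fin n, ∑ v : X × Fin n,
      (if v.1 ∉ Good ((R ω).image Prod.fst) then a u.1 * a v.1 * G ω v u else 0) ≤
      n * Real.exp 1 * ∑ x, a x * ∑ B ∈ 𝒲 x, rarM n (W1 * W2) (insert x B) B.card *
        (aF n (ind (insert x B)) * W1 * cF n a * W2).trace := by
  have key : ∀ v : X × Fin n, ∑ ω, ν ω *
      (if v.1 ∉ Good ((R ω).image Prod.fst) then ∑ u : X × Fin n, a u.1 * G ω v u else 0) ≤
      Real.exp 1 * ∑ B ∈ 𝒲 v.1, rarM n (W1 * W2) (insert v.1 B) B.card *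
        (aF n (ind (insert v.1 B)) * W1 * cF n a * W2).trace := fun v => by
    refine (avg_bad hν R _ (fun ω hω => Finset.sum_nonneg fun u _ =>
      mul_nonneg (ha _) (hG ω hω v u)) Good 𝒲 hW v.1 (fun B => 2 ^ B.card * (Real.exp 1 *
        (Real.exp 1 * ((cF n (ind (insert v.1 B)) * aF n (ind (insert v.1 B)) * (W1 * W2)).trace /
          (W1 * W2).trace) / B.card) ^ B.card *
        (aF n (ind (insert v.1 B)) * W1 * cF n a * W2).trace)) fun B hB φ => ?_).trans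
      (le_of_eq ?_)
    · have hne : (sl B φ).Nonempty := by
        rw [← Finset.card_pos, card_sl, Finset.card_pos, Finset.nonempty_iff_ne_empty]
        rintro rfl; exact hW0 _ hB
      have hc := ((hcor _ W1 W2 h1 h2 hZ (sl B φ) (fun w => ind (insert v.1 B) w.1) hne
        (fun w => ind_nonneg _ _) fun w hw =>
          one_le_ind (Finset.mem_insert_of_mem (mem_of_mem_sl hw))).2 (fun w => a w.1) v
          (fun w => ha _) (one_le_ind (Finset.mem_insert_self _ _))).2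
      rw [card_sl] at hc
      calc _ = ∑ u : X × Fin n, a u.1 * ∑ ω, ν ω * (if sl B φ ⊆ R ω then G ω v u else 0) := by
            simp only [Finset.mul_sum]
            rw [Finset.sum_comm]
            refine Finset.sum_congr rfl fun ω _ => ?_
            split_ifs
            · rw [Finset.mul_sum]; exact Finset.sum_congr rfl fun v _ => by ring
            · simp
        _ ≤ ∑ u : X × Fin n, a u.1 * (2 ^ B.card * (nb (sl B φ) * an v * W1 * cr u * W2).trace) :=
            Finset.sum_le_sum fun u _ => mul_le_mul_of_nonneg_left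
              (by simpa only [card_sl] using hb u v (sl B φ)) (ha _)
        _ = 2 ^ B.card * (nb (sl B φ) * an v * W1 * cF n a * W2).trace := by
            rw [trace_cF, Finset.mul_sum]; exact Finset.sum_congr rfl fun v _ => by ring
        _ ≤ _ := mul_le_mul_of_nonneg_left hc (by positivity)
    · rw [Finset.mul_sum]
      refine Finset.sum_congr rfl fun B _ => ?_
      rw [rarM, ← rar_eq]; ring
  calc _ = ∑ v : X × Fin n, a v.1 * ∑ ω, ν ω *
      (if v.1 ∉ Good ((R ω).image Prod.fst) then ∑ u : X × Fin n, a u.1 * G ω v u else 0) := by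
        simp only [Finset.mul_sum]
        rw [Finset.sum_comm (s := (Finset.univ : Finset (X × Fin n)))]
        refine Finset.sum_congr rfl fun ω _ => ?_
        rw [Finset.sum_comm]
        refine Finset.sum_congr rfl fun v _ => ?_
        split_ifs
        · simp
        · simp only [Finset.mul_sum]; exact Finset.sum_congr rfl fun v _ => by ring
    _ ≤ ∑ v : X × Fin n, a v.1 * (Real.exp 1 * ∑ B ∈ 𝒲 v.1, rarM n (W1 * W2) (insert v.1 B) B.card *
        (aF n (ind (insert v.1 B)) * W1 * cF n a * W2).trace) :=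
        Finset.sum_le_sum fun v _ => mul_le_mul_of_nonneg_left (key v) (ha _)
    _ = _ := by
        rw [Fintype.sum_prod_type, Finset.mul_sum]
        refine Finset.sum_congr rfl fun x _ => ?_
        simp only [Finset.sum_const, Finset.card_univ, Fintype.card_fin, nsmul_eq_mul]
        ring

theorem cost_avg (hcor : CorStmt) (W : BOp (X × Fin n)) (h1 : W ∈ Adm (X × Fin n))
    (hZ : 0 < W.trace) {Ω : Type} [Fintype Ω] (ν : Ω → ℝ) (hν : ∀ ω, 0 ≤ ν ω)
    (hνZ : ∑ ω, ν ω = W.trace) (R : Ω → Finset (X × Fin n))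
    (hb : ∀ A : Finset (X × Fin n), ∑ ω, ν ω * (if A ⊆ R ω then 1 else 0) ≤
        2 ^ A.card * (nb A * W).trace)
    (c0 : ℝ) (c : Finset X → ℝ) (hc : ∀ A, 0 ≤ c A) (hc0 : c ∅ = 0) :
    ∑ ω, ν ω * (c0 + ∑ A ∈ ((R ω).image Prod.fst).powerset, c A) ≤
      W.trace * (c0 + ∑ A, c A * rarM n W A A.card) := by
  have key : ∀ A : Finset X, c A * ∑ ω, ν ω * (if A ⊆ (R ω).image Prod.fst then 1 else 0) ≤
      W.trace * (c A * rarM n W A A.card) := fun A => by
    rcases A.eq_empty_or_nonempty with rfl | hA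
    · simp [hc0]
    have := avg_choice hν R (fun _ => 1) (fun _ _ => zero_le_one) A (2 ^ A.card * (W.trace *
      (Real.exp 1 * ((cF n (ind A) * aF n (ind A) * W).trace / W.trace) / A.card) ^ A.card))
      fun φ => by
        have hne : (sl A φ).Nonempty := by rwa [← Finset.card_pos, card_sl, Finset.card_pos]
        have hc := (hcor _ W 1 h1 (Submonoid.one_mem _) (by rwa [mul_one]) (sl A φ)
          (fun w => ind A w.1) hne (fun w => ind_nonneg _ _) fun w hw =>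
            one_le_ind (mem_of_mem_sl hw)).1
        rw [card_sl, mul_one] at hc
        have h2 := hb (sl A φ)
        rw [card_sl] at h2
        exact h2.trans (mul_le_mul_of_nonneg_left hc (by positivity))
    refine (mul_le_mul_of_nonneg_left this (hc A)).trans (le_of_eq ?_)
    rw [rarM, ← rar_eq]; ring
  have e : ∀ ω, ∑ A ∈ ((R ω).image Prod.fst).powerset, c A =
      ∑ A, c A * (if A ⊆ (R ω).image Prod.fst then 1 else 0) := fun ω => by
    simp only [mul_ite, mul_one, mul_zero, ← Finset.sum_filter]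
    exact Finset.sum_congr (by ext A; simp) fun _ _ => rfl
  simp only [e, mul_add, Finset.sum_add_distrib, ← Finset.sum_mul, hνZ, Finset.mul_sum]
  rw [Finset.sum_comm]
  refine add_le_add le_rfl (Finset.sum_le_sum fun A _ => le_trans (le_of_eq ?_) (key A))
  rw [Finset.mul_sum]
  exact Finset.sum_congr rfl fun ω _ => by ring

open Classical in
theorem core (hcor : CorStmt) {M : ℕ} (V : BOp (X × Fin n)) (hV : V ∈ Adm (X × Fin n))
    (hZ : 0 < (V ^ M).trace)
    {Ω : Type} [Fintype Ω] (ν : Ω → ℝ) (hν : ∀ ω, 0 ≤ ν ω) (hνZ : ∑ ω, ν ω = (V ^ M).trace)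
    (R : Ω → ℕ → Finset (X × Fin n)) (G : Ω → ℕ → X × Fin n → ℕ → X × Fin n → ℝ)
    (cl : Ω → ℕ → Prop) (γ : Ω → ℕ → X × Fin n → ℝ) {Γ η δ lam : ℝ} (hδ : 0 ≤ δ) (hlam : 0 ≤ lam)
    (hG : ∀ ω, 0 < ν ω → ∀ i' v i u, 0 ≤ G ω i' v i u ∧ G ω i' v i u ≤ Γ)
    (hGp : ∀ ω i', G ω (M + i') = G ω i') (hγp : ∀ ω i', γ ω (M + i') = γ ω i')
    (h1 : ∀ i k u v, 1 ≤ k → k < M →
      ∑ ω, ν ω * G ω (i + k) v i u = (an v * V ^ k * cr u * V ^ (M - k)).trace)
    (h2 : ∀ i k u v (A : Finset (X × Fin n)), 1 ≤ k → k < M →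
      ∑ ω, ν ω * (if A ⊆ R ω i then G ω (i + k) v i u else 0) ≤
        2 ^ A.card * (an v * V ^ k * (cr u * nb A) * V ^ (M - k)).trace)
    (h3 : ∀ i k u v (A : Finset (X × Fin n)), 1 ≤ k → k < M →
      ∑ ω, ν ω * (if A ⊆ R ω (i + k) then G ω (i + k) v i u else 0) ≤
        2 ^ A.card * (nb A * an v * V ^ k * cr u * V ^ (M - k)).trace)
    (h4 : ∀ i (A : Finset (X × Fin n)), ∑ ω, ν ω * (if A ⊆ R ω i then 1 else 0) ≤
        2 ^ A.card * (nb A * V ^ M).trace)
    (h5 : ∀ i, ∑ ω, ν ω * (if cl ω i then 0 else 1) ≤ η)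
    (a : X → ℝ) (ha : ∀ x, 0 ≤ a x) (c0 : ℝ) (c : Finset X → ℝ) (𝒲 : X → Finset (Finset X))
    (hc : ∀ A, 0 ≤ c A) (hc0 : c ∅ = 0) (hW0 : ∀ x, ∅ ∉ 𝒲 x) (Good : Finset X → Finset X)
    (hW : ∀ S x, x ∉ Good S → ∃ B ∈ 𝒲 x, B ⊆ S)
    (hγ : ∀ ω i u, γ ω i u =
      if cl ω i ∧ u.1 ∈ Good ((R ω i).image Prod.fst) then δ * a u.1 else 0)
    (hX : ∀ ω, 0 < ν ω → ∑ i' ∈ range M, ∑ v, γ ω i' v * ∑ i ∈ range M, ∑ u,
        G ω i' v i u * γ ω i u ≤
      lam * ∑ i ∈ range M, (c0 + ∑ A ∈ ((R ω i).image Prod.fst).powerset, c A)) :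
    δ ^ 2 * M * ∑ k ∈ Ico 1 M, (aF n a * V ^ k * cF n a * V ^ (M - k)).trace ≤
      lam * M * ((V ^ M).trace * (c0 + ∑ A, c A * rarM n (V ^ M) A A.card)) +
      δ ^ 2 * M * (n * Real.exp 1 * ∑ x, a x * ∑ B ∈ 𝒲 x, rarM n (V ^ M) (insert x B) B.card *
        (∑ k ∈ Ico 1 M, (aF n a * V ^ k * cF n (ind (insert x B)) * V ^ (M - k)).trace +
          ∑ k ∈ Ico 1 M, (aF n (ind (insert x B)) * V ^ k * cF n a * V ^ (M - k)).trace)) +
      δ ^ 2 * M * (M * (2 * (∑ u : X × Fin n, a u.1) ^ 2 * Γ * η)) := by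
  have hpow : ∀ k, k < M → V ^ k * V ^ (M - k) = V ^ M := fun k hk => by
    rw [← pow_add]; congr 1; omega
  set J0 := 2 * (∑ u : X × Fin n, a u.1) ^ 2 * Γ * η with hJ0
  set b1 : ℕ → ℝ := fun k => n * Real.exp 1 * ∑ x, a x * ∑ B ∈ 𝒲 x,
    rarM n (V ^ M) (insert x B) B.card *
      (aF n a * V ^ k * cF n (ind (insert x B)) * V ^ (M - k)).trace with hb1
  set b2 : ℕ → ℝ := fun k => n * Real.exp 1 * ∑ x, a x * ∑ B ∈ 𝒲 x,
    rarM n (V ^ M) (insert x B) B.card *
      (aF n (ind (insert x B)) * V ^ k * cF n a * V ^ (M - k)).trace with hb2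
  set P : Ω → ℕ → ℕ → ℝ := fun ω i i' => ∑ v, γ ω i' v * ∑ u, G ω i' v i u * γ ω i u with hP
  have hγ0 : ∀ ω i u, 0 ≤ γ ω i u := fun ω i u => by
    have := ha u.1
    rw [hγ]; split_ifs <;> positivity
  obtain ⟨ω0, hω0⟩ : ∃ ω, 0 < ν ω := by
    by_contra hcon
    push Not at hcon
    have : ∑ ω, ν ω ≤ 0 := Finset.sum_nonpos fun ω _ => hcon ω
    linarith
  have hη : 0 ≤ η := le_trans (Finset.sum_nonneg fun ω _ =>
    mul_nonneg (hν ω) (by split_ifs <;> norm_num)) (h5 0)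
  have hJ00 : 0 ≤ J0 := by
    rcases isEmpty_or_nonempty (X × Fin n) with he | ⟨⟨u⟩⟩
    · simp [hJ0]
    · have hΓ : 0 ≤ Γ := (hG ω0 hω0 0 u 0 u).1.trans (hG ω0 hω0 0 u 0 u).2
      positivity
  have step1 : ∀ i, ∀ k ∈ Ico 1 M, δ ^ 2 * (aF n a * V ^ k * cF n a * V ^ (M - k)).trace ≤
      ∑ ω, ν ω * P ω i (i + k) + δ ^ 2 * (b1 k + b2 k + J0) := by
    intro i k hk
    obtain ⟨hk1, hkM⟩ := Finset.mem_Ico.1 hk
    have hW1 := Submonoid.pow_mem _ hV k
    have hW2 := Submonoid.pow_mem _ hV (M - k)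
    have hZ' : 0 < (V ^ k * V ^ (M - k)).trace := by rwa [hpow k hkM]
    have e1 := bad_src hcor _ _ hW1 hW2 hZ' (pow_mul_comm V _ _) ν hν (fun ω => R ω i)
      (fun ω v u => G ω (i + k) v i u) (fun ω hω v u => (hG ω hω _ _ _ _).1)
      (fun u v A => h2 i k u v A hk1 hkM) a ha 𝒲 hW0 Good hW
    have e2 := bad_snk hcor _ _ hW1 hW2 hZ' ν hν (fun ω => R ω (i + k))
      (fun ω v u => G ω (i + k) v i u) (fun ω hω v u => (hG ω hω _ _ _ _).1)
      (fun u v A => h3 i k u v A hk1 hkM) a ha 𝒲 hW0 Good hW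
    rw [hpow k hkM] at e1 e2
    have e0 : (aF n a * V ^ k * cF n a * V ^ (M - k)).trace =
        ∑ ω, ν ω * ∑ u : X × Fin n, ∑ v : X × Fin n, a u.1 * a v.1 * G ω (i + k) v i u := by
      rw [trace_aF]
      simp only [trace_cF, ← h1 i k _ _ hk1 hkM, Finset.mul_sum]
      rw [Finset.sum_comm]
      simp only [Finset.sum_comm (t := (Finset.univ : Finset Ω))]
      refine Finset.sum_congr rfl fun ω _ => Finset.sum_congr rfl fun u _ =>
        Finset.sum_congr rfl fun v _ => by ring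
    have e3 : ∑ ω, ν ω * ∑ u : X × Fin n, ∑ v : X × Fin n, a u.1 * a v.1 * Γ *
        ((if cl ω i then 0 else 1) + (if cl ω (i + k) then 0 else 1)) ≤ J0 := by
      have e : ∀ ω, ∑ u : X × Fin n, ∑ v : X × Fin n, a u.1 * a v.1 * Γ *
          ((if cl ω i then 0 else 1) + (if cl ω (i + k) then 0 else 1)) =
          (∑ u : X × Fin n, a u.1) ^ 2 * Γ *
            ((if cl ω i then 0 else 1) + (if cl ω (i + k) then (0 : ℝ) else 1)) := fun ω => by
        rw [sq, Finset.sum_mul_sum, Finset.sum_mul, Finset.sum_mul]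
        exact Finset.sum_congr rfl fun u _ => by rw [Finset.sum_mul, Finset.sum_mul]
      simp only [e]
      rcases isEmpty_or_nonempty (X × Fin n) with he | ⟨⟨u⟩⟩
      · simp [hJ0]
      have hΓ : 0 ≤ Γ := (hG ω0 hω0 0 u 0 u).1.trans (hG ω0 hω0 0 u 0 u).2
      have h51 := mul_le_mul_of_nonneg_left (add_le_add (h5 i) (h5 (i + k)))
        (show 0 ≤ (∑ u : X × Fin n, a u.1) ^ 2 * Γ by positivity)
      rw [← Finset.sum_add_distrib, Finset.mul_sum] at h51
      refine le_trans (le_of_eq (Finset.sum_congr rfl fun ω _ => by ring)) (h51.trans (le_of_eq ?_))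
      rw [hJ0]; ring
    have e4 : ∑ ω, ν ω * (δ ^ 2 * ∑ u : X × Fin n, ∑ v : X × Fin n,
        a u.1 * a v.1 * G ω (i + k) v i u) ≤ ∑ ω, ν ω * (P ω i (i + k) + δ ^ 2 *
        (∑ u : X × Fin n, ∑ v : X × Fin n, (if u.1 ∉ Good ((R ω i).image Prod.fst) then
            a u.1 * a v.1 * G ω (i + k) v i u else 0) +
          ∑ u : X × Fin n, ∑ v : X × Fin n, (if v.1 ∉ Good ((R ω (i + k)).image Prod.fst) then
            a u.1 * a v.1 * G ω (i + k) v i u else 0) +
          ∑ u : X × Fin n, ∑ v : X × Fin n, a u.1 * a v.1 * Γ *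
            ((if cl ω i then 0 else 1) + (if cl ω (i + k) then 0 else 1)))) := by
      refine avg_le hν fun ω hω => ?_
      have eP : P ω i (i + k) = ∑ u, ∑ v, γ ω (i + k) v * (G ω (i + k) v i u * γ ω i u) := by
        simp only [hP, Finset.mul_sum]; exact Finset.sum_comm
      rw [eP]
      simp only [mul_add, Finset.mul_sum, ← Finset.sum_add_distrib]
      refine Finset.sum_le_sum fun u _ => Finset.sum_le_sum fun v _ => ?_
      obtain ⟨g0, g1⟩ := hG ω hω (i + k) v i u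
      have t0 : 0 ≤ δ ^ 2 * (a u.1 * a v.1 * G ω (i + k) v i u) :=
        mul_nonneg (sq_nonneg _) (mul_nonneg (mul_nonneg (ha _) (ha _)) g0)
      have t1 : δ ^ 2 * (a u.1 * a v.1 * G ω (i + k) v i u) ≤ δ ^ 2 * (a u.1 * a v.1 * Γ) :=
        mul_le_mul_of_nonneg_left (mul_le_mul_of_nonneg_left g1 (mul_nonneg (ha _) (ha _)))
          (sq_nonneg _)
      have t2 : δ * a v.1 * (G ω (i + k) v i u * (δ * a u.1)) =
          δ ^ 2 * (a u.1 * a v.1 * G ω (i + k) v i u) := by ring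
      rw [hγ, hγ]
      by_cases c1 : cl ω i <;> by_cases c2 : cl ω (i + k) <;>
        by_cases c3 : u.1 ∈ Good ((R ω i).image Prod.fst) <;>
        by_cases c4 : v.1 ∈ Good ((R ω (i + k)).image Prod.fst) <;>
        simp only [c1, c2, c3, c4, and_self, and_true, and_false, not_true, not_false_iff, if_true,
          if_false, mul_zero, zero_mul, mul_one, t2] <;> linarith
    have e5 : δ ^ 2 * (aF n a * V ^ k * cF n a * V ^ (M - k)).trace =
        ∑ ω, ν ω * (δ ^ 2 * ∑ u : X × Fin n, ∑ v : X × Fin n,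
          a u.1 * a v.1 * G ω (i + k) v i u) := by
      rw [e0, Finset.mul_sum]; exact Finset.sum_congr rfl fun ω _ => by ring
    rw [e5]
    refine e4.trans ?_
    have e6 := mul_le_mul_of_nonneg_left (add_le_add (add_le_add e1 e2) e3) (sq_nonneg δ)
    refine le_trans (le_of_eq ?_) (add_le_add le_rfl e6)
    rw [← Finset.sum_add_distrib, ← Finset.sum_add_distrib, Finset.mul_sum,
      ← Finset.sum_add_distrib]
    exact Finset.sum_congr rfl fun ω _ => by ring
  have step2 : ∑ i ∈ range M, ∑ k ∈ Ico 1 M, ∑ ω, ν ω * P ω i (i + k) ≤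
      lam * M * ((V ^ M).trace * (c0 + ∑ A, c A * rarM n (V ^ M) A A.card)) := by
    calc _ = ∑ ω, ν ω * ∑ i ∈ range M, ∑ k ∈ Ico 1 M, P ω i (i + k) := by
          simp only [Finset.mul_sum, Finset.sum_comm (t := (Finset.univ : Finset Ω))]
      _ ≤ ∑ ω, ν ω * (lam * ∑ i ∈ range M,
            (c0 + ∑ A ∈ ((R ω i).image Prod.fst).powerset, c A)) := by
          refine avg_le hν fun ω hω => le_trans ?_ (hX ω hω)
          have hP0 : ∀ i i', 0 ≤ P ω i i' := fun i i' => Finset.sum_nonneg fun v _ =>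
            mul_nonneg (hγ0 _ _ _) (Finset.sum_nonneg fun u _ =>
              mul_nonneg (hG ω hω _ _ _ _).1 (hγ0 _ _ _))
          calc _ ≤ ∑ i ∈ range M, ∑ i' ∈ range M, P ω i i' := by
                refine Finset.sum_le_sum fun i _ => ?_
                rw [← sum_range_shift (P ω i) M (fun j => by simp only [hP, hGp, hγp]) i]
                refine Finset.sum_le_sum_of_subset_of_nonneg (fun k hk => ?_) fun k _ _ => hP0 _ _
                exact Finset.mem_range.2 (Finset.mem_Ico.1 hk).2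
            _ = _ := by
                rw [Finset.sum_comm]
                refine Finset.sum_congr rfl fun i' _ => ?_
                simp only [hP, Finset.mul_sum]
                exact Finset.sum_comm
      _ = lam * ∑ i ∈ range M, ∑ ω, ν ω *
            (c0 + ∑ A ∈ ((R ω i).image Prod.fst).powerset, c A) := by
          rw [Finset.sum_comm, Finset.mul_sum]
          refine Finset.sum_congr rfl fun ω _ => ?_
          rw [← Finset.mul_sum]; ring
      _ ≤ lam * ∑ _i ∈ range M, (V ^ M).trace * (c0 + ∑ A, c A * rarM n (V ^ M) A A.card) :=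
          mul_le_mul_of_nonneg_left (Finset.sum_le_sum fun i _ => cost_avg hcor _
            (Submonoid.pow_mem _ hV M) hZ ν hν hνZ (fun ω => R ω i) (h4 i) c0 c hc hc0) hlam
      _ = _ := by rw [Finset.sum_const, Finset.card_range, nsmul_eq_mul]; ring
  have step3 := Finset.sum_le_sum fun i (_ : i ∈ range M) => Finset.sum_le_sum (step1 i)
  simp only [Finset.sum_add_distrib, Finset.sum_const, Finset.card_range, nsmul_eq_mul,
    ← Finset.mul_sum, Nat.card_Ico] at step3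
  have e7 : ∑ k ∈ Ico 1 M, b1 k + ∑ k ∈ Ico 1 M, b2 k =
      n * Real.exp 1 * ∑ x, a x * ∑ B ∈ 𝒲 x, rarM n (V ^ M) (insert x B) B.card *
        (∑ k ∈ Ico 1 M, (aF n a * V ^ k * cF n (ind (insert x B)) * V ^ (M - k)).trace +
          ∑ k ∈ Ico 1 M, (aF n (ind (insert x B)) * V ^ k * cF n a * V ^ (M - k)).trace) := by
    simp only [hb1, hb2, Finset.mul_sum, mul_add, Finset.sum_add_distrib,
      Finset.sum_comm (s := Ico 1 M)]
  have e8 : ((M - 1 : ℕ) : ℝ) * J0 ≤ M * J0 :=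
    mul_le_mul_of_nonneg_right (by exact_mod_cast Nat.sub_le M 1) hJ00
  have e9 := mul_le_mul_of_nonneg_left e8 (show 0 ≤ δ ^ 2 * M by positivity)
  rw [← e7]
  nlinarith

end Crest.Agent.N337.KV
end

-- ▼ part N337/KV/Fin

/-!
# Row 337, part KV: the finite-`M` inequality (helper23)
-/

set_option autoImplicit false
set_option linter.unusedSectionVars false

namespace Crest.Agent.N337.KV

open Crest.MathPhysics.SpinModel Crest.Agent.N337.Slot Finset Matrix Filter Topology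

theorem prod_range_getD {α β : Type} [CommMonoid β] (l : List α) (d : α) (f : α → β) :
    ∏ j ∈ range l.length, f (l.getD j d) = (l.map f).prod := by
  induction l with
  | nil => simp
  | cons x l ih =>
    rw [List.length_cons, Finset.prod_range_succ']
    simp only [List.getD_cons_succ, List.getD_cons_zero, ih, List.map_cons, List.prod_cons]
    exact mul_comm _ _

theorem sum_range_getD {α : Type} (l : List α) (d : α) (f : α → ℝ) :
    ∑ j ∈ range l.length, f (l.getD j d) = (l.map f).sum := by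
  induction l with
  | nil => simp
  | cons x l ih =>
    rw [List.length_cons, Finset.sum_range_succ']
    simp only [List.getD_cons_succ, List.getD_cons_zero, ih, List.map_cons, List.sum_cons]
    exact add_comm _ _

section word
variable {Λ : Type} [Fintype Λ] [DecidableEq Λ]

theorem fug_one : (fug 1 : BOp Λ) = 1 := by simp [fug]

theorem step_zero (x y : Λ) : step x y 0 = 1 := by simp [step]

/-- the letters of one period. -/
noncomputable def wd (w : List (Λ × Λ × ℝ)) (r : Λ → Λ → ℝ) (δ ζ0 : ℝ) (u0 : Λ) :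
    List (Λ × Λ × ℝ × ℝ) :=
  (prs Λ).map (fun q => (q.1, q.2, δ * r q.1 q.2 / 2, 1)) ++
    (u0, u0, 0, ζ0) :: w.reverse.map fun q => (q.1, q.2.1, q.2.2, 1)

/-- the operator of a letter. -/
def lop (q : Λ × Λ × ℝ × ℝ) : BOp Λ := fug q.2.2.2 * step q.1 q.2.1 q.2.2.1

theorem wd_length (w : List (Λ × Λ × ℝ)) (r : Λ → Λ → ℝ) (δ ζ0 : ℝ) (u0 : Λ) :
    (prs Λ).length < (wd w r δ ζ0 u0).length := by simp [wd]

theorem wd_prod (w : List (Λ × Λ × ℝ)) (r : Λ → Λ → ℝ) (h δ : ℝ) (u0 : Λ) :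
    ((wd w r δ (Real.exp (-(δ * h))) u0).map lop).reverse.prod =
      per (w.map fun q => step q.1 q.2.1 q.2.2).prod r h δ := by
  simp [wd, per, sweep, lop, fug_one, step_zero, Function.comp_def, List.map_reverse, mul_assoc]

theorem wd_zeta (w : List (Λ × Λ × ℝ)) (r : Λ → Λ → ℝ) (δ ζ0 : ℝ) (u0 : Λ) :
    ((wd w r δ ζ0 u0).map fun q => q.2.2.2).prod = ζ0 := by
  simp [wd, Function.comp_def]

theorem wd_getD_lt (w : List (Λ × Λ × ℝ)) (r : Λ → Λ → ℝ) (δ ζ0 : ℝ) (u0 : Λ) (d : Λ × Λ × ℝ × ℝ)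
    {j : ℕ} (hj : j < (prs Λ).length) : (wd w r δ ζ0 u0).getD j d =
      (((prs Λ).getD j (u0, u0)).1, ((prs Λ).getD j (u0, u0)).2,
        δ * r ((prs Λ).getD j (u0, u0)).1 ((prs Λ).getD j (u0, u0)).2 / 2, 1) := by
  rw [wd, List.getD_append _ _ _ _ (by simpa using hj)]
  simp [List.getD_eq_getElem?_getD, List.getElem?_eq_getElem hj]

theorem wd_getD_eq (w : List (Λ × Λ × ℝ)) (r : Λ → Λ → ℝ) (δ ζ0 : ℝ) (u0 : Λ)
    (d : Λ × Λ × ℝ × ℝ) : (wd w r δ ζ0 u0).getD (prs Λ).length d = (u0, u0, 0, ζ0) := by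
  rw [wd, List.getD_append_right _ _ _ _ (by simp)]
  simp

theorem wd_mem {w : List (Λ × Λ × ℝ)} (hw : ∀ q ∈ w, 0 ≤ q.2.2 ∧ q.2.2 ≤ 1) {r : Λ → Λ → ℝ}
    {δ ζ0 : ℝ} (hr : ∀ x y, 0 ≤ δ * r x y / 2 ∧ δ * r x y / 2 ≤ 1) (hζ : 0 < ζ0 ∧ ζ0 ≤ 1) (u0 : Λ) :
    ∀ q ∈ wd w r δ ζ0 u0, (0 ≤ q.2.2.1 ∧ q.2.2.1 ≤ 1) ∧ (0 < q.2.2.2 ∧ q.2.2.2 ≤ 1) := by
  intro q hq
  simp only [wd, List.mem_append, List.mem_map, List.mem_cons, List.mem_reverse] at hq
  rcases hq with ⟨q', -, rfl⟩ | rfl | ⟨q', hq', rfl⟩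
  · exact ⟨hr _ _, one_pos, le_rfl⟩
  · exact ⟨⟨le_rfl, zero_le_one⟩, hζ⟩
  · exact ⟨hw _ hq', one_pos, le_rfl⟩

theorem lop_mem {q : Λ × Λ × ℝ × ℝ} (h : (0 ≤ q.2.2.1 ∧ q.2.2.1 ≤ 1) ∧ (0 < q.2.2.2 ∧ q.2.2.2 ≤ 1)) :
    lop q ∈ Adm Λ :=
  Submonoid.mul_mem _ (Submonoid.subset_closure (Or.inr ⟨_, h.2.1, rfl⟩))
    (Submonoid.subset_closure (Or.inl ⟨_, _, _, h.1.1, h.1.2, rfl⟩))

end word

variable {X : Type} [Fintype X] [DecidableEq X] {n : ℕ}

/-- normalised Riemann sum of two-time amplitudes. -/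
noncomputable def rs (β : ℝ) (M : ℕ) (V A B : BOp (X × Fin n)) : ℝ :=
  β / M * (∑ k ∈ Ico 1 M, (A * V ^ k * B * V ^ (M - k)).trace) / (V ^ M).trace

theorem fin_at (hrep : RepStmt) (hcor : CorStmt) (hn : 1 ≤ n) {J : X → X → ℝ}
    (hJ : ∀ x y, 0 ≤ J x y) {β h κ : ℝ} (hβ : 0 < β) (hh : 0 < h) (hκ : 0 < κ) (u0 : X × Fin n)
    (w : List ((X × Fin n) × (X × Fin n) × ℝ)) (hw : ∀ q ∈ w, 0 ≤ q.2.2 ∧ q.2.2 ≤ 1)
    (a : X → ℝ) (ha : ∀ x, 0 ≤ a x) (c0 : ℝ) (c : Finset X → ℝ) (𝒲 : X → Finset (Finset X))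
    (hc00 : 0 ≤ c0) (hc : ∀ A, 0 ≤ c A) (hc0 : c ∅ = 0) (hW0 : ∀ x, ∅ ∉ 𝒲 x)
    (Good : Finset X → Finset X) (hdis : ∀ S, Disjoint (Good S) S)
    (hquad : ∀ S (ψ : X → ℝ), (∀ x, 0 ≤ ψ x) → (∑ x ∈ Good S, a x * ψ x) ^ 2 ≤
      (c0 + ∑ A ∈ S.powerset, c A) * (spinVal n * dir J S ψ + h * ∑ x ∈ Sᶜ, ψ x ^ 2))
    (hW : ∀ S x, x ∉ Good S → ∃ B ∈ 𝒲 x, B ⊆ S) {M : ℕ} (hM : 2 ≤ M)
    (hp1 : ∀ x y, β / M * (J x y / 2) / 2 ≤ 1)
    (hκ1 : κ ≤ Real.exp (-(β / M * h)) ^ 2)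
    (hκ2 : 2 * κ * (β / M) * h ≤ 1 - Real.exp (-(β / M * h)) ^ 2 -
      16 * (β / M * ∑ q : (X × Fin n) × (X × Fin n), J q.1.1 q.2.1 / 2 / 2) ^ 2)
    (V : BOp (X × Fin n)) (hVdef : V = per (w.map fun q => step q.1 q.2.1 q.2.2).prod
      (fun u v : X × Fin n => J u.1 v.1 / 2) h (β / M)) :
    rs β M V (aF n a) (cF n a) ≤ n / κ * (c0 + ∑ A, c A * rarM n (V ^ M) A A.card) +
      n * Real.exp 1 * ∑ x, a x * ∑ B ∈ 𝒲 x, rarM n (V ^ M) (insert x B) B.card *
        (rs β M V (aF n a) (cF n (ind (insert x B))) + rs β M V (aF n (ind (insert x B))) (cF n a)) +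
      (β * (2 * (∑ u : X × Fin n, a u.1) ^ 2 * (1 / (1 - Real.exp (-(β * h)))) *
        (2 ^ Fintype.card (X × Fin n) *
          (β * ∑ q : (X × Fin n) × (X × Fin n), J q.1.1 q.2.1 / 2 / 2)))) / M := by
  classical
  have hM0 : (0 : ℝ) < M := by positivity
  set δ := β / M with hδdef
  have hδ : 0 < δ := by positivity
  set ζ0 := Real.exp (-(δ * h)) with hζ0def
  have hζ0 : 0 < ζ0 ∧ ζ0 ≤ 1 := ⟨Real.exp_pos _, Real.exp_le_one_iff.2 (by
    have := mul_pos hδ hh; linarith)⟩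
  set r : X × Fin n → X × Fin n → ℝ := fun u v => J u.1 v.1 / 2 with hr
  set l := wd w r δ ζ0 u0 with hl
  set L := l.length with hL
  set m := (prs (X × Fin n)).length with hm
  have hmL : m < L := wd_length w r δ ζ0 u0
  have hL0 : 0 < L := by omega
  haveI : NeZero (M * L) := ⟨(Nat.mul_pos (by omega) hL0).ne'⟩
  set D : ℕ → (X × Fin n) × (X × Fin n) × ℝ × ℝ := fun k => l.getD (k % L) (u0, u0, 0, 1) with hD
  have hDtm : ∀ k, D (tm (M * L) k).val = D k := fun k => by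
    simp only [hD, tm_val, Nat.mod_mod_of_dvd _ (Dvd.intro_left M rfl)]
  have hDper : ∀ j, D (L + j) = D j := fun j => by simp only [hD, Nat.add_mod_left]
  have hDlt : ∀ i, ∀ j < L, D (i * L + j) = l.getD j (u0, u0, 0, 1) := fun i j hj => by
    simp only [hD, Nat.mul_add_mod', Nat.mod_eq_of_lt hj]
  have hlmem := wd_mem hw (r := r) (δ := δ) (fun x y => ⟨by
    have := hJ x.1 y.1; simp only [hr]; positivity, hp1 _ _⟩) hζ0 u0
  have hDmem : ∀ k, D k ∈ l := fun k => by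
    have hk : k % L < l.length := Nat.mod_lt _ hL0
    simp only [hD, List.getD_eq_getElem?_getD, List.getElem?_eq_getElem hk, Option.getD_some]
    exact List.getElem_mem hk
  have hV : pr (fun k => lop (D k)) L = V := by
    rw [hVdef, ← wd_prod w r h δ u0, ← pr_getD, List.length_map]
    refine pr_congr fun j hj => ?_
    have := hDlt 0 j hj
    rw [Nat.zero_mul, Nat.zero_add] at this
    rw [this]
    have hj' : j < l.length := hj
    simp only [List.getD_eq_getElem?_getD, List.getElem?_map, ← hζ0def, ← hl,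
      List.getElem?_eq_getElem hj', Option.getD_some, Option.map_some]
  have hVA : V ∈ Adm (X × Fin n) := by
    rw [← hV]
    refine Submonoid.list_prod_mem _ fun A hA => ?_
    obtain ⟨j, -, rfl⟩ := List.mem_map.1 (List.mem_reverse.1 hA)
    exact lop_mem (hlmem _ (hDmem j))
  have hprod : ∏ s : Fin (M * L), (D s.val).2.2.2 = Real.exp (-(β * h)) := by
    rw [prod_tm, prod_range_mul]
    have : ∀ i ∈ range M, ∏ j ∈ range L, (D (tm (M * L) (i * L + j)).val).2.2.2 = ζ0 :=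
      fun i _ => by
        rw [← wd_zeta w r δ ζ0 u0, ← prod_range_getD _ (u0, u0, 0, 1)]
        exact Finset.prod_congr rfl fun j hj => by rw [hDtm, hDlt i j (Finset.mem_range.1 hj)]
    rw [Finset.prod_congr rfl this, Finset.prod_const, Finset.card_range, hζ0def,
      ← Real.exp_nat_mul]
    congr 1
    rw [hδdef]; field_simp
  have hlt : Real.exp (-(β * h)) < 1 := Real.exp_lt_one_iff.2 (by have := mul_pos hβ hh; linarith)
  obtain ⟨Ω, _, ν, R, K, G, hν, hνZ, hZ1, hω, r1, r2, r3, r4, r5⟩ :=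
    hrep (X × Fin n) (M * L) (fun s => (D s.val).1) (fun s => (D s.val).2.1)
      (fun s => (D s.val).2.2.1) (fun s => (D s.val).2.2.2) (by nlinarith)
      (fun s => (hlmem _ (hDmem _)).1) (fun s => (hlmem _ (hDmem _)).2) (by rw [hprod]; exact hlt)
  have hY : ∀ k, (fun s : Fin (M * L) => fug (D s.val).2.2.2 *
      step (D s.val).1 (D s.val).2.1 (D s.val).2.2.1) (tm (M * L) k) = (fun k => lop (D k)) k :=
    fun k => by simp only [hDtm, lop]
  have hYp : ∀ j, (fun k => lop (D k)) (L + j) = (fun k => lop (D k)) j := fun j => by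
    simp only [hDper]
  rw [amp_one hY hYp, hV] at hνZ hZ1
  have hZ : 0 < (V ^ M).trace := by linarith
  set ρ := ∑ q : (X × Fin n) × (X × Fin n), J q.1.1 q.2.1 / 2 / 2 with hρ
  have hsum : ∀ i (φ : (X × Fin n) × (X × Fin n) → ℝ),
      ∑ j ∈ range m, (D (tm (M * L) (i * L + j)).val).2.2.1 *
        φ ((D (tm (M * L) (i * L + j)).val).1, (D (tm (M * L) (i * L + j)).val).2.1) =
        δ * ∑ q, J q.1.1 q.2.1 / 2 / 2 * φ q := fun i φ => by
    have e := sum_range_getD (prs (X × Fin n)) (u0, u0) fun q => δ * r q.1 q.2 / 2 * φ q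
    rw [prs, Finset.sum_map_toList] at e
    rw [Finset.mul_sum, Finset.sum_congr rfl (g := fun q => δ * r q.1 q.2 / 2 * φ q)
      fun q _ => by simp only [hr]; ring, ← e]
    refine Finset.sum_congr rfl fun j hj => ?_
    have hj' : j < m := Finset.mem_range.1 hj
    rw [hDtm, hDlt i j (by omega), hl, wd_getD_lt _ _ _ _ _ _ hj']
    rfl
  have hper : ∀ i j, tm (M * L) ((M + i) * L + j) = tm (M * L) (i * L + j) := fun i j => by
    rw [Nat.add_mul, Nat.add_assoc, tm_add_self]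
  have hper0 : ∀ i, tm (M * L) ((M + i) * L) = tm (M * L) (i * L) := fun i => hper i 0
  have hcore := core hcor V hVA hZ ν hν hνZ (fun ω i => R ω (tm (M * L) (i * L)))
    (fun ω i' v i u => G ω (tm (M * L) (i' * L), v) (tm (M * L) (i * L), u))
    (fun ω i => Clean M L m (R ω) i) (fun ω => src M L m (R ω) Good δ a)
    (Γ := 1 / (1 - Real.exp (-(β * h)))) (η := 2 ^ Fintype.card (X × Fin n) * (δ * ρ))
    (δ := δ) (lam := δ * n / κ) hδ.le (by positivity)
    (fun ω h0 i' v i u => by rw [← hprod]; exact (hω ω h0).1 _ _)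
    (fun ω i' => by simp only [hper0])
    (fun ω i' => by
      funext u
      have e : Clean M L m (R ω) (M + i') = Clean M L m (R ω) i' := by simp only [Clean, hper]
      simp only [src, hper0, e])
    (fun i k u v hk hkM => by rw [r1 _ _ _ _ (tm_ne hk hkM), amp_ins2 hY hYp i hk hkM, hV])
    (fun i k u v A hk hkM => by
      have := r2 _ _ u v A (tm_ne (i := i) hk hkM)
      rwa [amp_ins2 hY hYp i hk hkM, hV] at this)
    (fun i k u v A hk hkM => by
      have := r3 _ _ u v A (tm_ne (i := i) hk hkM)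
      rwa [amp_ins2 hY hYp i hk hkM, hV] at this)
    (fun i A => by
      have := r4 (tm (M * L) (i * L)) A
      rwa [amp_ins1 hY hYp i, hV] at this)
    (fun i => by
      have e := hsum i fun _ => 1
      simp only [mul_one] at e
      rw [hρ, ← e, Finset.mul_sum]
      refine le_trans ?_ (Finset.sum_le_sum fun j _ => r5 (tm (M * L) (i * L + j)))
      rw [Finset.sum_comm]
      simp only [← Finset.mul_sum]
      refine avg_le hν fun ω _ => ?_
      have h0 : ∀ j, (0 : ℝ) ≤ if R ω (tm (M * L) (i * L + j) + 1) = R ω (tm (M * L) (i * L + j))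
          then 0 else 1 := fun j => by split_ifs <;> norm_num
      split_ifs with hcl
      · exact Finset.sum_nonneg fun j _ => h0 j
      · simp only [Clean, not_forall] at hcl
        obtain ⟨j, hj, hne⟩ := hcl
        refine le_trans ?_ (Finset.single_le_sum (fun j _ => h0 j) (Finset.mem_range.2 hj))
        rw [if_neg hne])
    a ha c0 c 𝒲 hc hc0 hW0 Good hW (fun ω i u => by simp only [src])
    (fun ω h0 => by
      obtain ⟨g1, g2, g3, g4, g5⟩ := hω ω h0
      exact omega_bound hn hJ hmL hδ.le hκ hh.le _ _ _ _ (fun s => (hlmem _ (hDmem _)).1)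
        (fun s => (hlmem _ (hDmem _)).2)
        (fun i j hj => by rw [hDtm, hDlt i j (by omega), hl, wd_getD_lt _ _ _ _ _ _ hj])
        (fun i => by rw [hDtm, hDlt i m hmL, hl, hm, wd_getD_eq]) hsum hκ1 hκ2 (R ω) (K ω) (G ω)
        (fun v u => (g1 v u).1) g2 g3 g4 g5 a ha Good (fun S => c0 + ∑ A ∈ S.powerset, c A)
        (fun S => add_nonneg hc00 (Finset.sum_nonneg fun A _ => hc A)) hdis hquad)
  set Z := (V ^ M).trace with hZdef
  have hρ0 : 0 ≤ ρ := Finset.sum_nonneg fun q _ => by have := hJ q.1.1 q.2.1; positivity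
  have hΓ0 : 0 ≤ 1 / (1 - Real.exp (-(β * h))) := by
    have : 0 < 1 - Real.exp (-(β * h)) := by linarith
    positivity
  set Jk := 2 * (∑ u : X × Fin n, a u.1) ^ 2 * (1 / (1 - Real.exp (-(β * h)))) with hJk
  have hJk0 : 0 ≤ Jk := by positivity
  have e1 : ∀ A B : BOp (X × Fin n), rs β M V A B =
      δ / Z * ∑ k ∈ Ico 1 M, (A * V ^ k * B * V ^ (M - k)).trace := fun A B => by
    rw [rs, ← hZdef, ← hδdef]; ring
  have e2 : ∑ x, a x * ∑ B ∈ 𝒲 x, rarM n (V ^ M) (insert x B) B.card *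
        (rs β M V (aF n a) (cF n (ind (insert x B))) + rs β M V (aF n (ind (insert x B))) (cF n a)) =
      δ / Z * ∑ x, a x * ∑ B ∈ 𝒲 x, rarM n (V ^ M) (insert x B) B.card *
        (∑ k ∈ Ico 1 M, (aF n a * V ^ k * cF n (ind (insert x B)) * V ^ (M - k)).trace +
          ∑ k ∈ Ico 1 M, (aF n (ind (insert x B)) * V ^ k * cF n a * V ^ (M - k)).trace) := by
    rw [Finset.mul_sum]
    refine Finset.sum_congr rfl fun x _ => ?_
    rw [Finset.mul_sum, Finset.mul_sum, Finset.mul_sum]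
    refine Finset.sum_congr rfl fun B _ => ?_
    rw [e1, e1]; ring
  rw [e2, e1]
  have hβδ : β = δ * M := by rw [hδdef]; field_simp
  have h9 : β * (Jk * (2 ^ Fintype.card (X × Fin n) * (δ * ρ))) / Z ≤
      β * (Jk * (2 ^ Fintype.card (X × Fin n) * (β * ρ))) / M := by
    have : β * (Jk * (2 ^ Fintype.card (X × Fin n) * (β * ρ))) / M =
        β * (Jk * (2 ^ Fintype.card (X × Fin n) * (δ * ρ))) := by rw [hδdef]; ring
    rw [this]
    exact div_le_self (by positivity) hZ1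
  refine le_trans ?_ (add_le_add le_rfl h9)
  have h10 := div_le_div_of_nonneg_right hcore (show 0 ≤ δ * M * Z by positivity)
  refine le_trans (le_of_eq ?_) (h10.trans (le_of_eq ?_))
  · field_simp
  · conv_rhs => rw [hβδ]
    field_simp

end Crest.Agent.N337.KV
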